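import Vale.Agent.P284.H287.CY.N1c

/-!
# P284, theorem CY, row N1 (helper287): the linearisation is uniformly elliptic; `n1Stmt`
-/

open scoped Manifold ContDiff Topology NNReal ComplexOrder ComplexConjugate Matrix
open Filter Set Metric MeasureTheory

set_option maxSynthPendingDepth 3
set_option linter.unusedSectionVars false

noncomputable section

namespace Vale.Agent.P284.H287.CY

open Vale.Agent.P272.K Vale.Agent.P272.K.LIN Vale.Agent.P272.K.N Vale.Agent.P284.H248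
  Vale.Agent.P284.H894 Vale.Agent.P284.H894.G Vale.Agent.P284.H894.V Vale.Agent.P284.H409.K
  Vale.Agent.P284.H730.CY Vale.Agent.P284.H730.V

section lin
variable {n : ℕ}

/-- the complex gradient of the real linear form `ξ` -/
def av (ξ : Cm n →L[ℝ] ℝ) : Cm n := fun j =>
  (((ξ (Pi.single j 1) : ℝ) : ℂ) - Complex.I * (ξ (Pi.single j Complex.I) : ℝ)) / 2

theorem trace_av (M : Matrix (Fin n) (Fin n) ℂ) (ξ : Cm n →L[ℝ] ℝ) :
    (M * lev (ξ.smulRight ξ)).trace = S M (av ξ) (av ξ) := by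
  have h1 : lev (ξ.smulRight ξ) = Matrix.vecMulVec (av ξ) (star (av ξ)) := by
    ext j k
    rw [lev_rankOne, Matrix.vecMulVec_apply]
    rfl
  rw [h1, Matrix.mul_vecMulVec, Matrix.trace_vecMulVec, dotProduct_comm, S_eq]

theorem norm_av (ξ : Cm n →L[ℝ] ℝ) (j : Fin n) :
    ‖av ξ j‖ ^ 2 = (ξ (Pi.single j 1) ^ 2 + ξ (Pi.single j Complex.I) ^ 2) / 4 := by
  rw [← Complex.normSq_eq_norm_sq, Complex.normSq_apply]
  have e2 : (2 : ℂ) = ((2:ℝ):ℂ) := by norm_num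
  have h1 : (av ξ j).re = ξ (Pi.single j 1) / 2 := by
    rw [av, e2, Complex.div_ofReal_re]; simp
  have h2 : (av ξ j).im = -ξ (Pi.single j Complex.I) / 2 := by
    rw [av, e2, Complex.div_ofReal_im]; simp
  rw [h1, h2]; ring

theorem norm_sq_le (ξ : Cm n →L[ℝ] ℝ) : ‖ξ‖ ^ 2 ≤ 8 * (n + 1) * (S 1 (av ξ) (av ξ)).re := by
  have h1 : ‖ξ‖ ≤ ∑ j, (|ξ (Pi.single j 1)| + |ξ (Pi.single j Complex.I)|) := by
    refine ξ.opNorm_le_bound (Finset.sum_nonneg fun _ _ => by positivity) fun x => ?_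
    rw [decomp x, map_sum, Real.norm_eq_abs, ← decomp x, Finset.sum_mul]
    refine (Finset.abs_sum_le_sum_abs _ _).trans (Finset.sum_le_sum fun j _ => ?_)
    rw [map_add, map_smul, map_smul, smul_eq_mul, smul_eq_mul]
    have h2 : |(x j).re| ≤ ‖x‖ := (Complex.abs_re_le_norm _).trans (norm_le_pi_norm x j)
    have h3 : |(x j).im| ≤ ‖x‖ := (Complex.abs_im_le_norm _).trans (norm_le_pi_norm x j)
    calc |(x j).re * ξ (Pi.single j 1) + (x j).im * ξ (Pi.single j Complex.I)|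
        ≤ |(x j).re * ξ (Pi.single j 1)| + |(x j).im * ξ (Pi.single j Complex.I)| :=
          abs_add_le _ _
      _ = |(x j).re| * |ξ (Pi.single j 1)| + |(x j).im| * |ξ (Pi.single j Complex.I)| := by
          rw [abs_mul, abs_mul]
      _ ≤ ‖x‖ * |ξ (Pi.single j 1)| + ‖x‖ * |ξ (Pi.single j Complex.I)| := by gcongr
      _ = (|ξ (Pi.single j 1)| + |ξ (Pi.single j Complex.I)|) * ‖x‖ := by ring
  have h2 : (∑ j, (|ξ (Pi.single j 1)| + |ξ (Pi.single j Complex.I)|)) ^ 2 ≤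
      (n : ℝ) * ∑ j, (|ξ (Pi.single j 1)| + |ξ (Pi.single j Complex.I)|) ^ 2 := by
    have := sq_sum_le_card_mul_sum_sq (s := (Finset.univ : Finset (Fin n)))
      (f := fun j => |ξ (Pi.single j 1)| + |ξ (Pi.single j Complex.I)|)
    simpa using this
  have h3 : ∀ j, (|ξ (Pi.single j 1)| + |ξ (Pi.single j Complex.I)|) ^ 2 ≤ 8 * ‖av ξ j‖ ^ 2 := by
    intro j
    rw [norm_av]
    nlinarith [sq_abs (ξ (Pi.single j 1)), sq_abs (ξ (Pi.single j Complex.I)),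
      sq_nonneg (|ξ (Pi.single j 1)| - |ξ (Pi.single j Complex.I)|)]
  rw [S_one]
  have h5 : 0 ≤ ∑ j, ‖av ξ j‖ ^ 2 := Finset.sum_nonneg fun _ _ => by positivity
  calc ‖ξ‖ ^ 2 ≤ (∑ j, (|ξ (Pi.single j 1)| + |ξ (Pi.single j Complex.I)|)) ^ 2 := by
        gcongr
    _ ≤ (n : ℝ) * ∑ j, (|ξ (Pi.single j 1)| + |ξ (Pi.single j Complex.I)|) ^ 2 := h2
    _ ≤ (n : ℝ) * ∑ j, 8 * ‖av ξ j‖ ^ 2 := by
        gcongr with j
        exact h3 j
    _ = 8 * n * ∑ j, ‖av ξ j‖ ^ 2 := by rw [← Finset.mul_sum]; ring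
    _ ≤ 8 * (n + 1) * ∑ j, ‖av ξ j‖ ^ 2 := by
        gcongr
        linarith

theorem norm_lev_le (B : Bil n) (j k : Fin n) : ‖lev B j k‖ ≤ ‖B‖ := by
  have hs1 : ∀ i : Fin n, ‖(Pi.single i 1 : Cm n)‖ ≤ 1 := fun i => by
    rw [Pi.norm_single]; simp
  have hsI : ∀ i : Fin n, ‖(Pi.single i Complex.I : Cm n)‖ ≤ 1 := fun i => by
    rw [Pi.norm_single]; simp
  have hB : ∀ x y : Cm n, ‖x‖ ≤ 1 → ‖y‖ ≤ 1 → |B x y| ≤ ‖B‖ := by
    intro x y hx hy
    calc |B x y| ≤ ‖B‖ * ‖x‖ * ‖y‖ := B.le_opNorm₂ x y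
      _ ≤ ‖B‖ * 1 * 1 := by gcongr
      _ = ‖B‖ := by ring
  rw [lev_apply, norm_div]
  have h4 : ‖(4 : ℂ)‖ = 4 := by norm_num
  rw [h4, div_le_iff₀ (by norm_num)]
  refine (norm_add_le _ _).trans ?_
  rw [norm_mul, Complex.norm_I, one_mul, Complex.norm_real, Complex.norm_real, Real.norm_eq_abs,
    Real.norm_eq_abs]
  have a1 := abs_add_le (B (Pi.single j 1) (Pi.single k 1))
    (B (Pi.single j Complex.I) (Pi.single k Complex.I))
  have a2 := abs_sub (B (Pi.single j 1) (Pi.single k Complex.I))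
    (B (Pi.single j Complex.I) (Pi.single k 1))
  have b1 := hB _ _ (hs1 j) (hs1 k)
  have b2 := hB _ _ (hsI j) (hsI k)
  have b3 := hB _ _ (hs1 j) (hsI k)
  have b4 := hB _ _ (hsI j) (hs1 k)
  linarith

theorem norm_sq_le_S (v : Cm n) : ‖v‖ ^ 2 ≤ (S 1 v v).re := by
  rw [S_one]
  rcases isEmpty_or_nonempty (Fin n) with h | h
  · have : v = 0 := Subsingleton.elim _ _
    rw [this]; simp
  · obtain ⟨j, hj⟩ : ∃ j, ‖v‖ = ‖v j‖ := by
      obtain ⟨j, -, hj⟩ := Finset.exists_mem_eq_sup' (s := (Finset.univ : Finset (Fin n)))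
        Finset.univ_nonempty (fun j => ‖v j‖)
      refine ⟨j, le_antisymm ?_ (norm_le_pi_norm v j)⟩
      refine (pi_norm_le_iff_of_nonneg (norm_nonneg _)).2 fun i => ?_
      rw [← hj]
      exact Finset.le_sup' (fun j => ‖v j‖) (Finset.mem_univ i)
    rw [hj]
    exact Finset.single_le_sum (f := fun j => ‖v j‖ ^ 2) (fun _ _ => by positivity)
      (Finset.mem_univ j)

theorem S_add_mat (A B : Matrix (Fin n) (Fin n) ℂ) (v : Cm n) :
    S (A + B) v v = S A v v + S B v v := by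
  simp only [S, Matrix.add_apply, add_mul, Finset.sum_add_distrib]

end lin

section
variable {n : ℕ} {Γ : Type} [Group Γ] {C : Coc n Γ} {α : ℝ}

theorem gm_up (K : KM C) (u : C2A C α) : ∃ Λ : ℝ, 0 < Λ ∧ ∀ (p : Pt C) (v : Fin n → ℂ),
    (S (gm K u p) v v).re ≤ Λ * (S 1 v v).re := by
  refine ⟨|K.Lam| + (n : ℝ) ^ 2 * ‖J2 C α u‖ + 1, by positivity, fun p v => ?_⟩
  have hS : 0 ≤ (S (1 : Matrix (Fin n) (Fin n) ℂ) v v).re :=
    S_nonneg Matrix.PosSemidef.one v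
  have h1 : (S (K.w p.a p.z) v v).re ≤ |K.Lam| * (S 1 v v).re := by
    have h2 := K.up p.a p.z (H913.V.V_sub C p.a p.mem) (fun j => conj (v j))
    rw [form_star]
    refine h2.trans ?_
    rw [sum_norm_conj]
    gcongr
    exact le_abs_self _
  have h2 : (S (lev (J2 C α u p)) v v).re ≤ (n : ℝ) ^ 2 * ‖J2 C α u‖ * (S 1 v v).re := by
    rw [S_eq]
    refine (Complex.re_le_norm _).trans ?_
    refine (re_quadratic_le (ε := ‖J2 C α u‖) (fun i j => (norm_lev_le _ i j).trans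
      (Hol.norm_apply_le _ p)) v).trans ?_
    gcongr
    exact norm_sq_le_S v
  rw [gm, S_add_mat, Complex.add_re]
  nlinarith

theorem mul_mem {f g : Hol (wt C α) ℝ} (hf : f ∈ HA C α) (hg : g ∈ HA C α) : f * g ∈ HA C α :=
  fun p q h => by rw [Hol.mul_apply, Hol.mul_apply, hf p q h, hg p q h]

theorem exp_mem {f : Hol (wt C α) ℝ} (hf : f ∈ HA C α) : NormedSpace.exp f ∈ HA C α :=
  fun p q h => by rw [Hol.exp_apply, Hol.exp_apply, hf p q h]

/-- `exp (-(u + s F))` -/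
def mm (F : HA C α) (s : ℝ) (u : C2A C α) : Hol (wt C α) ℝ :=
  NormedSpace.exp (-(Iu C α u + s • (F : Hol (wt C α) ℝ)))

theorem mm_apply (F : HA C α) (s : ℝ) (u : C2A C α) (p : Pt C) :
    mm F s u p = Real.exp (-(Iu C α u p + s * (F : Hol (wt C α) ℝ) p)) := by
  simp only [mm, Hol.exp_apply, Hol.neg_apply, Hol.add_apply, Hol.smul_apply, smul_eq_mul]
  rw [Real.exp_eq_exp_ℝ]

theorem mm_mem (F : HA C α) (s : ℝ) (u : C2A C α) : mm F s u ∈ HA C α :=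
  exp_mem ((HA C α).neg_mem ((HA C α).add_mem (inc C α u).2 ((HA C α).smul_mem s F.2)))

/-- the Laplacian of `w + ∂∂̄u` -/
def LH (K : KM C) (h0 : 0 < α) (h1 : α ≤ 1) (F : HA C α) (s : ℝ) (u : C2A C α) :
    C2A C α →L[ℝ] HA C α :=
  ((ContinuousLinearMap.mul ℝ (Hol (wt C α) ℝ) (mm F s u)).comp
    ((fderiv ℝ (GH K h0 h1 F) (s, u)).comp (ContinuousLinearMap.inr ℝ ℝ (C2A C α))) +
    Iu C α).codRestrict (HA C α) fun v =>
      (HA C α).add_mem (mul_mem (mm_mem F s u) (GH'_mem K h0 h1 F (s, u) (0, v))) (inc C α v).2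

theorem LH_apply (K : KM C) (h0 : 0 < α) (h1 : α ≤ 1) (F : HA C α) (s : ℝ) (u v : C2A C α)
    (p : Pt C) : (LH K h0 h1 F s u v : Hol (wt C α) ℝ) p =
      mm F s u p * (fderiv ℝ (GH K h0 h1 F) (s, u) (0, v)) p + Iu C α v p := rfl

theorem ell (K : KM C) (h0 : 0 < α) (h1 : α ≤ 1) {F : HA C α} {s : ℝ} {u : C2A C α}
    (hu : u ∈ PosS K α) (hG : GA K h0 h1 F (s, u) = 0) :
    Ell C α (LH K h0 h1 F s u) (cf K h0 h1 F s u) where
  pos := by
    obtain ⟨Λ, hΛ, hup⟩ := gm_up K u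
    refine ⟨1 / (8 * (n + 1) * Λ), by positivity, fun p ξ => ?_⟩
    rw [cf_apply K h0 h1 hu hG, trace_av]
    have h2 := one_le_inv (posDef_of_PosS hu p) (hup p) hΛ (av ξ)
    have h3 := norm_sq_le ξ
    rw [one_div, inv_mul_le_iff₀ (by positivity)]
    calc ‖ξ‖ ^ 2 ≤ 8 * (n + 1) * (S 1 (av ξ) (av ξ)).re := h3
      _ ≤ 8 * (n + 1) * (Λ * (S (K.w p.a p.z + lev (J2 C α u p))⁻¹ (av ξ) (av ξ)).re) := by
          gcongr
      _ = 8 * (n + 1) * Λ * (S (gm K u p)⁻¹ (av ξ) (av ξ)).re := by rw [gm]; ring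
  eq := by
    intro v p
    rw [LH_apply, GH'_apply K h0 h1 hu hG, mm_apply, cf_apply K h0 h1 hu hG, ← mul_assoc,
      ← Real.exp_add]
    simp

theorem final (K : KM C) (h0 : 0 < α) (h1 : α ≤ 1) {F : HA C α} {s : ℝ} {u : C2A C α}
    (f : HA C α) : ∃ g : HA C α, ∀ v, inc C α v - LH K h0 h1 F s u v = g →
      GA' K h0 h1 F (s, u) (0, v) = f := by
  refine ⟨⟨-(mm F s u * (f : Hol (wt C α) ℝ)),
    (HA C α).neg_mem (mul_mem (mm_mem F s u) f.2)⟩, fun v hv => ?_⟩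
  apply Subtype.ext
  ext p
  have h2 := congrArg (fun g : HA C α => (g : Hol (wt C α) ℝ) p) hv
  have h3 : Iu C α v p - (mm F s u p * (fderiv ℝ (GH K h0 h1 F) (s, u) (0, v)) p + Iu C α v p) =
      -(mm F s u p * (f : Hol (wt C α) ℝ) p) := h2
  have h4 : mm F s u p ≠ 0 := by rw [mm_apply]; exact (Real.exp_pos _).ne'
  have h5 : mm F s u p * (fderiv ℝ (GH K h0 h1 F) (s, u) (0, v)) p =
      mm F s u p * (f : Hol (wt C α) ℝ) p := by linarith
  exact mul_left_cancel₀ h4 h5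

end

/-- **N1** -/
theorem n1Stmt : N1Stmt := by
  intro n Γ _ C K F hF α h0 h1
  refine ⟨GA K h0 h1.le (FH h0 h1.le hF), GA' K h0 h1.le (FH h0 h1.le hF),
    fun s u => GA_strict K h0 h1.le _ (s, u), fun s u hu => GA_eq_zero_iff K h0 h1.le hF hu,
    fun s u hu hG => ⟨LH K h0 h1.le _ s u, cf K h0 h1.le _ s u, ell K h0 h1.le hu hG,
      fun f => final K h0 h1.le f⟩⟩

end Vale.Agent.P284.H287.CY
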