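import Vale.Agent.P284.H730.CY.Spec
import Vale.Agent.P284.H913.K3
import Vale.Agent.P272.K.N.Linear

/-!
# P284, theorem CY, row N1 (helper287): Hölder elements, the operator, compatibility
-/

open scoped Manifold ContDiff Topology NNReal ComplexOrder ComplexConjugate Matrix
open Filter Set Metric MeasureTheory

set_option maxSynthPendingDepth 3
set_option linter.unusedSectionVars false

noncomputable section

namespace Vale.Agent.P284.H287.CY

open Vale.Agent.P272.K Vale.Agent.P272.K.LIN Vale.Agent.P272.K.N Vale.Agent.P284.H248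
  Vale.Agent.P284.H894 Vale.Agent.P284.H894.G Vale.Agent.P284.H894.V Vale.Agent.P284.H409.K
  Vale.Agent.P284.H730.CY

section hol
variable {n : ℕ} {Γ : Type} [Group Γ] {C : Coc n Γ} {V : Type} [NormedAddCommGroup V]
  [NormedSpace ℝ V] {α : ℝ}

theorem coe_wt_same {p q : Pt C} (h : p.γ = q.γ ∧ p.a = q.a) :
    ((wt C α p q : ℝ≥0) : ℝ) = ‖p.z - q.z‖ ^ α := by
  simp [wt, h]

theorem coe_wt_diff {p q : Pt C} (h : ¬ (p.γ = q.γ ∧ p.a = q.a)) :
    ((wt C α p q : ℝ≥0) : ℝ) = 1 := by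
  simp [wt, h]

/-- the sum of the diameters of the balls -/
def diam (C : Coc n Γ) : ℝ := ∑ a, 6 * C.r a

theorem le_diam (C : Coc n Γ) {a : C.I} {z z' : Cm n} (hz : z ∈ C.V a) (hz' : z' ∈ C.V a) :
    ‖z - z'‖ ≤ diam C := by
  have h1 : dist z z' ≤ 6 * C.r a := by
    have h2 := mem_ball.1 (show z ∈ ball (C.c a) (3 * C.r a) from hz)
    have h3 := mem_ball.1 (show z' ∈ ball (C.c a) (3 * C.r a) from hz')
    linarith [dist_triangle_right z z' (C.c a)]
  rw [← dist_eq_norm]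
  refine h1.trans ?_
  exact Finset.single_le_sum (f := fun a => 6 * C.r a)
    (fun i _ => by have := C.r_pos i; positivity) (Finset.mem_univ a)

theorem diam_nonneg (C : Coc n Γ) : 0 ≤ diam C :=
  Finset.sum_nonneg fun i _ => by have := C.r_pos i; positivity

theorem lip_hol (h0 : 0 < α) (h1 : α ≤ 1) {a : C.I} {z z' : Cm n} (hz : z ∈ C.V a)
    (hz' : z' ∈ C.V a) : ‖z - z'‖ ≤ diam C ^ (1 - α) * ‖z - z'‖ ^ α := by
  rcases (norm_nonneg (z - z')).eq_or_lt with h | h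
  · rw [← h, Real.zero_rpow h0.ne', mul_zero]
  · calc ‖z - z'‖ = ‖z - z'‖ ^ (1 - α) * ‖z - z'‖ ^ α := by
          rw [← Real.rpow_add h]; simp
      _ ≤ diam C ^ (1 - α) * ‖z - z'‖ ^ α := by
          gcongr
          exact le_diam C hz hz'

/-- uniformly bounded and uniformly Lipschitz families are Hölder -/
def ofLip (h0 : 0 < α) (h1 : α ≤ 1) (f : Γ → C.I → Cm n → V)
    (hf : ∃ A B : ℝ, (∀ γ a, ∀ z ∈ C.V a, ‖f γ a z‖ ≤ A) ∧
      ∀ γ a, ∀ z ∈ C.V a, ∀ z' ∈ C.V a, ‖f γ a z - f γ a z'‖ ≤ B * ‖z - z'‖) :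
    Hol (wt C α) V where
  toFun p := f p.γ p.a p.z
  bdd' := by
    obtain ⟨A, B, hA, hB⟩ := hf
    exact ⟨A, fun p => hA _ _ _ p.mem⟩
  hol' := by
    obtain ⟨A, B, hA, hB⟩ := hf
    refine ⟨|B| * diam C ^ (1 - α) + 2 * |A|, fun p q => ?_⟩
    have hD : 0 ≤ diam C ^ (1 - α) := Real.rpow_nonneg (diam_nonneg C) _
    by_cases h : p.γ = q.γ ∧ p.a = q.a
    · rw [coe_wt_same h]
      obtain ⟨γ, a, z, hz⟩ := p
      obtain ⟨γ', a', z', hz'⟩ := q
      obtain ⟨h2, h3⟩ := h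
      simp only at h2 h3
      subst h2 h3
      simp only
      have h4 : 0 ≤ ‖z - z'‖ ^ α := by positivity
      calc ‖f γ a z - f γ a z'‖ ≤ B * ‖z - z'‖ := hB γ a z hz z' hz'
        _ ≤ |B| * ‖z - z'‖ := by gcongr; exact le_abs_self B
        _ ≤ |B| * (diam C ^ (1 - α) * ‖z - z'‖ ^ α) := by
            gcongr; exact lip_hol h0 h1 hz hz'
        _ ≤ (|B| * diam C ^ (1 - α) + 2 * |A|) * ‖z - z'‖ ^ α := by
            have : 0 ≤ 2 * |A| * ‖z - z'‖ ^ α := by positivity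
            nlinarith
    · rw [coe_wt_diff h, mul_one]
      calc ‖f p.γ p.a p.z - f q.γ q.a q.z‖ ≤ ‖f p.γ p.a p.z‖ + ‖f q.γ q.a q.z‖ := norm_sub_le _ _
        _ ≤ |A| + |A| := add_le_add ((hA _ _ _ p.mem).trans (le_abs_self A))
            ((hA _ _ _ q.mem).trans (le_abs_self A))
        _ ≤ |B| * diam C ^ (1 - α) + 2 * |A| := by
            have : 0 ≤ |B| * diam C ^ (1 - α) := by positivity
            linarith

@[simp] theorem ofLip_apply (h0 : 0 < α) (h1 : α ≤ 1) (f : Γ → C.I → Cm n → V)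
    (hf : ∃ A B : ℝ, (∀ γ a, ∀ z ∈ C.V a, ‖f γ a z‖ ≤ A) ∧
      ∀ γ a, ∀ z ∈ C.V a, ∀ z' ∈ C.V a, ‖f γ a z - f γ a z'‖ ≤ B * ‖z - z'‖) (p : Pt C) :
    ofLip h0 h1 f hf p = f p.γ p.a p.z := rfl

theorem closedV_sub (C : Coc n Γ) (a : C.I) : closedBall (C.c a) (3 * C.r a) ⊆ C.Ω a :=
  closedBall_subset_ball (by have := C.r_pos a; linarith)

theorem exists_inv {g : C.I → Cm n → V} (hg : ∀ a, ∀ z ∈ C.Ω a, ContDiffAt ℝ 1 (g a) z) :
    ∃ A B : ℝ, (∀ (_ : Γ) a, ∀ z ∈ C.V a, ‖g a z‖ ≤ A) ∧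
      ∀ (_ : Γ) a, ∀ z ∈ C.V a, ∀ z' ∈ C.V a, ‖g a z - g a z'‖ ≤ B * ‖z - z'‖ := by
  have hA : ∀ a, ∃ A : ℝ, ∀ z ∈ C.V a, ‖g a z‖ ≤ A := by
    intro a
    have hc : ContinuousOn (g a) (closedBall (C.c a) (3 * C.r a)) := fun z hz =>
      (hg a z (closedV_sub C a hz)).continuousAt.continuousWithinAt
    obtain ⟨A, hA⟩ := (isCompact_closedBall (C.c a) (3 * C.r a)).exists_bound_of_continuousOn hc
    exact ⟨A, fun z hz => hA z (ball_subset_closedBall hz)⟩
  have hB : ∀ a, ∃ B : ℝ, ∀ z ∈ C.V a, ∀ z' ∈ C.V a, ‖g a z - g a z'‖ ≤ B * ‖z - z'‖ := by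
    intro a
    have hc : ContinuousOn (fderiv ℝ (g a)) (closedBall (C.c a) (3 * C.r a)) := fun z hz =>
      ((hg a z (closedV_sub C a hz)).fderiv_right (m := 0)
        (by norm_num)).continuousAt.continuousWithinAt
    obtain ⟨B, hB⟩ := (isCompact_closedBall (C.c a) (3 * C.r a)).exists_bound_of_continuousOn hc
    refine ⟨B, fun z hz z' hz' => ?_⟩
    exact (convex_ball (C.c a) (3 * C.r a)).norm_image_sub_le_of_norm_fderiv_le
      (𝕜 := ℝ) (f := g a) (C := B)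
      (fun y hy => (hg a y (closedV_sub C a (ball_subset_closedBall hy))).differentiableAt
        (by simp)) (fun y hy => hB y (ball_subset_closedBall hy)) hz' hz
  choose A hA using hA
  choose B hB using hB
  refine ⟨∑ a, |A a|, ∑ a, |B a|, fun _ a z hz => (hA a z hz).trans ((le_abs_self _).trans
    (Finset.single_le_sum (f := fun a => |A a|) (fun i _ => abs_nonneg _) (Finset.mem_univ a))),
    fun _ a z hz z' hz' => (hB a z hz z' hz').trans ?_⟩
  gcongr
  exact (le_abs_self _).trans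
    (Finset.single_le_sum (f := fun a => |B a|) (fun i _ => abs_nonneg _) (Finset.mem_univ a))

/-- a function on the balls of `X` as a Hölder function on the covering -/
def ofInv (h0 : 0 < α) (h1 : α ≤ 1) (g : C.I → Cm n → V)
    (hg : ∀ a, ∀ z ∈ C.Ω a, ContDiffAt ℝ 1 (g a) z) : Hol (wt C α) V :=
  ofLip h0 h1 (fun _ a z => g a z) (exists_inv hg)

@[simp] theorem ofInv_apply (h0 : 0 < α) (h1 : α ≤ 1) (g : C.I → Cm n → V)
    (hg : ∀ a, ∀ z ∈ C.Ω a, ContDiffAt ℝ 1 (g a) z) (p : Pt C) :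
    ofInv h0 h1 g hg p = g p.a p.z := rfl

theorem exists_FB {F : Γ → C.I → Cm n → ℝ} (hF : FB C F) :
    ∃ A B : ℝ, (∀ γ a, ∀ z ∈ C.V a, ‖F γ a z‖ ≤ A) ∧
      ∀ γ a, ∀ z ∈ C.V a, ∀ z' ∈ C.V a, ‖F γ a z - F γ a z'‖ ≤ B * ‖z - z'‖ := by
  have hr : ∀ a, 3 * C.r a < 4 * C.r a := fun a => by have := C.r_pos a; linarith
  choose A hA using fun a => hF.bd a (3 * C.r a) (hr a) 0
  choose B hB using fun a => hF.bd a (3 * C.r a) (hr a) 1
  have hA' : ∀ a, A a ≤ ∑ a, |A a| := fun a => (le_abs_self _).trans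
    (Finset.single_le_sum (f := fun a => |A a|) (fun i _ => abs_nonneg _) (Finset.mem_univ a))
  have hB' : ∀ a, B a ≤ ∑ a, |B a| := fun a => (le_abs_self _).trans
    (Finset.single_le_sum (f := fun a => |B a|) (fun i _ => abs_nonneg _) (Finset.mem_univ a))
  refine ⟨∑ a, |A a|, ∑ a, |B a|, fun γ a z hz => ?_, fun γ a z hz z' hz' => ?_⟩
  · have h := hA a γ z (ball_subset_closedBall hz)
    rw [norm_iteratedFDeriv_zero] at h
    exact h.trans (hA' a)
  · have h2 : ‖F γ a z - F γ a z'‖ ≤ B a * ‖z - z'‖ :=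
      (convex_ball (C.c a) (3 * C.r a)).norm_image_sub_le_of_norm_fderiv_le
        (𝕜 := ℝ) (f := F γ a) (C := B a)
        (fun y hy => (hF.smooth γ a y (closedV_sub C a
          (ball_subset_closedBall hy))).differentiableAt (by simp))
        (fun y hy => by
          have h := hB a γ y (ball_subset_closedBall hy)
          rwa [norm_iteratedFDeriv_one] at h) hz' hz
    refine h2.trans ?_
    gcongr
    exact hB' a

/-- `F` as an element of `C^α` -/
def FH (h0 : 0 < α) (h1 : α ≤ 1) {F : Γ → C.I → Cm n → ℝ} (hF : FB C F) : HA C α :=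
  ⟨ofLip h0 h1 F (exists_FB hF), fun p q h => by
    show F p.γ p.a p.z = F q.γ q.a q.z
    rw [hF.compat p.γ p.a q.a p.z h.mem, h.κ, h.T]⟩

theorem isClosed_HA : IsClosed (HA C α : Set (Hol (wt C α) ℝ)) := by
  have : (HA C α : Set (Hol (wt C α) ℝ)) =
      ⋂ p : Pt C, ⋂ q : Pt C, ⋂ _ : Same C p q, {f | f p = f q} := by
    ext f
    simp only [mem_iInter]
    rfl
  rw [this]
  refine isClosed_iInter fun p => isClosed_iInter fun q => isClosed_iInter fun _ => ?_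
  exact isClosed_eq (Hol.continuous_eval p) (Hol.continuous_eval q)

end hol

section cod
variable {E F : Type*} [NormedAddCommGroup E] [NormedSpace ℝ E] [NormedAddCommGroup F]
  [NormedSpace ℝ F]

theorem fderiv_mem (S : Submodule ℝ F) (hS : IsClosed (S : Set F)) {g : E → F} {g' : E →L[ℝ] F}
    {x : E} (hg : HasFDerivAt g g' x) (hmem : ∀ y, g y ∈ S) (v : E) : g' v ∈ S := by
  have h1 : HasDerivAt (fun t : ℝ => x + t • v) v 0 := by
    simpa using ((hasDerivAt_id (0:ℝ)).smul_const v).const_add x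
  have h2 : HasDerivAt (fun t : ℝ => g (x + t • v)) (g' v) 0 := by
    have h3 : HasFDerivAt g g' (x + (0:ℝ) • v) := by simpa using hg
    exact h3.comp_hasDerivAt (0:ℝ) h1
  have h3 := h2.tendsto_slope_zero
  refine hS.mem_of_tendsto h3 (Eventually.of_forall fun t => ?_)
  exact S.smul_mem _ (S.sub_mem (hmem _) (hmem _))

theorem strict_cod (S : Submodule ℝ F) {g : E → F} {g' : E →L[ℝ] F}
    {x : E} (hg : HasStrictFDerivAt g g' x) (hmem : ∀ y, g y ∈ S) (h : ∀ v, g' v ∈ S) :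
    HasStrictFDerivAt (fun y => (⟨g y, hmem y⟩ : S)) (g'.codRestrict S h) x := by
  refine HasStrictFDerivAt.of_isLittleO ?_
  refine Asymptotics.IsLittleO.of_norm_left ?_
  exact (hg.isLittleO).norm_left

end cod

end Vale.Agent.P284.H287.CY
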