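import Vale.Agent.P284.H287.CY.N1a
import Vale.Agent.P284.H730.VP

/-!
# P284, theorem CY, row N1 (helper287): the operator and its values
-/

open scoped Manifold ContDiff Topology NNReal ComplexOrder ComplexConjugate Matrix
open Filter Set Metric MeasureTheory

set_option maxSynthPendingDepth 3
set_option linter.unusedSectionVars false

noncomputable section

namespace Vale.Agent.P284.H287.CY

open Vale.Agent.P272.K Vale.Agent.P272.K.LIN Vale.Agent.P272.K.N Vale.Agent.P284.H248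
  Vale.Agent.P284.H894 Vale.Agent.P284.H894.G Vale.Agent.P284.H894.V Vale.Agent.P284.H409.K
  Vale.Agent.P284.H730.CY Vale.Agent.P284.H730.V

section comp
variable {n : ℕ} {T : Cm n → Cm n} {z : Cm n}

/-- the complex Hessian under a holomorphic map, for `C²` functions -/
theorem cHess_comp2 {f f' : Cm n → ℝ} (hT : ∀ᶠ y in 𝓝 z, DifferentiableAt ℂ T y)
    (h2 : ContDiffAt ℝ 2 f' (T z)) (e : ∀ᶠ y in 𝓝 z, f y = f' (T y)) :
    cHess f z = (jmat T z)ᵀ * cHess f' (T z) * (jmat T z).map (starRingEnd ℂ) := by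
  have hTz : DifferentiableAt ℂ T z := hT.self_of_nhds
  ext j k
  rw [C2.cHess_apply]
  have e1 : (dzb k fun y => (f y : ℂ)) =ᶠ[𝓝 z]
      fun y => ∑ q, dzb q (fun y => (f' y : ℂ)) (T y) * cj (jmat T y q k) := by
    have hc : ∀ᶠ y in 𝓝 z, ContDiffAt ℝ 2 f' (T y) :=
      hTz.continuousAt.eventually (C2.eventually_contDiffAt (m := 2) h2)
    filter_upwards [e.eventually_nhds, hT, hc] with y hy hTy hcy
    have h1 : (fun y => (f y : ℂ)) =ᶠ[𝓝 y] fun y => (f' (T y) : ℂ) := by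
      filter_upwards [hy] with x hx
      rw [hx]
    rw [C2.dzb_congr k h1, dzb_comp_holo (f := fun y => (f' y : ℂ))
      (C2.differentiableAt_ofReal (hcy.differentiableAt (by norm_num))) hTy]
  have hd : ∀ q, DifferentiableAt ℝ (dzb q (fun y => (f' y : ℂ))) (T z) := fun q =>
    C2.differentiableAt_dzb q (C2.contDiffAt_ofReal h2)
  have hTr : DifferentiableAt ℝ T z := hTz.restrictScalars ℝ
  have hd' : ∀ q, DifferentiableAt ℝ (fun y => dzb q (fun y => (f' y : ℂ)) (T y)) z := fun q =>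
    (hd q).comp z hTr
  have hJ : ∀ q, DifferentiableAt ℝ (fun y => jmat T y q k) z := fun q =>
    (jmat_holo hT q k).restrictScalars ℝ
  have hJ' : ∀ q, DifferentiableAt ℝ (fun y => cj (jmat T y q k)) z := fun q =>
    C2.differentiableAt_conj (hJ q)
  rw [C2.dz_congr j e1, C2.dz_sum j _ (fun q _ => (hd' q).fun_mul (hJ' q))]
  have e2 : ∀ q, dz j (fun y => dzb q (fun y => (f' y : ℂ)) (T y) * cj (jmat T y q k)) z =
      (∑ p, jmat T z p j * cHess f' (T z) p q) * cj (jmat T z q k) := by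
    intro q
    rw [C2.dz_mul j (hd' q) (hJ' q), C2.dz_conj j (hJ q),
      Vale.Agent.P272.K.dzb_of_holo (jmat_holo hT q k), map_zero, mul_zero, add_zero,
      dz_comp_holo (hd q) hTz]
    congr 1
    exact Finset.sum_congr rfl fun p _ => mul_comm _ _
  simp only [e2]
  rw [Matrix.mul_apply]
  refine Finset.sum_congr rfl fun q _ => ?_
  rw [Matrix.mul_apply]
  rfl

end comp

section
variable {n : ℕ} {Γ : Type} [Group Γ] {C : Coc n Γ} {α : ℝ}

theorem fn_compat (u : C2A C α) {p q : Pt C} (h : Same C p q) :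
    ∀ᶠ z in 𝓝 p.z, fn u p.γ p.a z = fn u q.γ q.a (C.T p.a q.a z) := by
  have hT : ContinuousAt (C.T p.a q.a) p.z := (H913.V.T_diff C h.mem).continuousAt
  have hq : C.T p.a q.a p.z ∈ C.V q.a := by rw [← h.T]; exact q.mem
  filter_upwards [(V_open C p.a).mem_nhds p.mem, (C.O_open p.a q.a).mem_nhds h.mem,
    C.κ_loc p.a q.a p.z h.mem, hT.eventually ((V_open C q.a).mem_nhds hq)] with z h1 h2 h3 h4
  have h5 := u.2.1 ⟨p.γ, p.a, z, h1⟩ ⟨q.γ, q.a, C.T p.a q.a z, h4⟩
    ⟨h2, rfl, by simp only [h3]; exact h.κ⟩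
  rw [fn, fam_of_mem _ _ _ h1, fam_of_mem _ _ _ h4]
  exact h5

theorem lev_J2 (u : C2A C α) (p : Pt C) : lev (J2 C α u p) = cHess (fn u p.γ p.a) p.z := by
  rw [J2_apply, cHess_eq_lev]
  exact ((fn_contDiffAt u p).fderiv_right (m := 1) (by norm_num)).differentiableAt (by simp)

theorem lev_same (u : C2A C α) {p q : Pt C} (h : Same C p q) :
    lev (J2 C α u p) = (jac C p.a q.a p.z).transpose * lev (J2 C α u q) *
      (jac C p.a q.a p.z).map (starRingEnd ℂ) := by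
  rw [lev_J2, lev_J2, h.T]
  refine cHess_comp2 (T := C.T p.a q.a) ?_ ?_ (fn_compat u h)
  · filter_upwards [(C.O_open p.a q.a).mem_nhds h.mem] with y hy
    exact H913.V.T_diff C hy
  · rw [← h.T]
    exact fn_contDiffAt u q

theorem posDef_w (K : KM C) (p : Pt C) : (K.w p.a p.z).PosDef :=
  (K.ku p.a).pos _ (H913.V.V_sub C p.a p.mem)

theorem det_w_pos (K : KM C) (p : Pt C) : 0 < (K.w p.a p.z).det.re :=
  (Complex.pos_iff.1 (posDef_w K p).det_pos).1

theorem det_w_unit (K : KM C) (p : Pt C) : IsUnit (K.w p.a p.z).det :=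
  isUnit_iff_ne_zero.2 (posDef_w K p).det_pos.ne'

theorem relM_eq (K : KM C) (H : Matrix (Fin n) (Fin n) ℂ) (p : Pt C) :
    1 + (K.w p.a p.z)⁻¹ * H = (K.w p.a p.z)⁻¹ * (K.w p.a p.z + H) := by
  rw [Matrix.mul_add, Matrix.nonsing_inv_mul _ (det_w_unit K p)]

/-- the value of the operator does not depend on the chart -/
theorem det_same (K : KM C) (u : C2A C α) {p q : Pt C} (h : Same C p q) :
    (1 + (K.w p.a p.z)⁻¹ * lev (J2 C α u p)).det = (1 + (K.w q.a q.z)⁻¹ * lev (J2 C α u q)).det := by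
  set J := jac C p.a q.a p.z with hJ
  have hw : K.w p.a p.z = J.transpose * K.w q.a q.z * J.map (starRingEnd ℂ) := by
    rw [h.T]
    exact K.change _ _ _ h.mem
  have hH := lev_same u h
  have h1 : K.w p.a p.z + lev (J2 C α u p) =
      J.transpose * (K.w q.a q.z + lev (J2 C α u q)) * J.map (starRingEnd ℂ) := by
    rw [Matrix.mul_add, Matrix.add_mul, ← hw, ← hH]
  have hd : (K.w p.a p.z).det ≠ 0 := (det_w_unit K p).ne_zero
  have hd' : (K.w q.a q.z).det ≠ 0 := (det_w_unit K q).ne_zero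
  have h2 : (K.w p.a p.z).det = J.det * (K.w q.a q.z).det * (J.map (starRingEnd ℂ)).det := by
    conv_lhs => rw [hw]
    rw [Matrix.det_mul, Matrix.det_mul, Matrix.det_transpose]
  have h3 : J.det ≠ 0 := fun h0 => hd (by rw [h2, h0, zero_mul, zero_mul])
  have h4 : (J.map (starRingEnd ℂ)).det ≠ 0 := fun h0 => hd (by rw [h2, h0, mul_zero])
  rw [relM_eq K _ p, relM_eq K _ q, Matrix.det_mul, Matrix.det_mul, Matrix.det_nonsing_inv,
    Matrix.det_nonsing_inv, Ring.inverse_eq_inv', h1, Matrix.det_mul, Matrix.det_mul,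
    Matrix.det_transpose, h2]
  field_simp

variable (C α) in
/-- the inclusion in the Hölder algebra -/
def Iu : C2A C α →L[ℝ] Hol (wt C α) ℝ := (HA C α).subtypeL.comp (inc C α)

theorem Iu_apply (u : C2A C α) (p : Pt C) : Iu C α u p = fn u p.γ p.a p.z := inc_apply u p

theorem inv_smooth (K : KM C) (j k : Fin n) (a : C.I) (z : Cm n) (hz : z ∈ C.Ω a) :
    ContDiffAt ℝ 1 (fun y => (K.w a y)⁻¹ j k) z :=
  contDiffAt_inv (fun i j => ((K.ku a).smooth z hz i j).of_le (by simp))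
    ((K.ku a).pos z hz).det_pos.ne' j k

/-- the matrices `w⁻¹` in the Hölder algebra -/
def SM (K : KM C) (h0 : 0 < α) (h1 : α ≤ 1) : Matrix (Fin n) (Fin n) (Hol (wt C α) ℂ) :=
  Matrix.of fun j k => ofInv h0 h1 (fun a z => (K.w a z)⁻¹ j k) (inv_smooth K j k)

theorem evM_SM (K : KM C) (h0 : 0 < α) (h1 : α ≤ 1) (p : Pt C) :
    evM (SM K h0 h1) p = (K.w p.a p.z)⁻¹ := by
  ext j k
  simp [SM, evM_apply]

/-- the operator with values in the Hölder algebra -/
def GH (K : KM C) (h0 : 0 < α) (h1 : α ≤ 1) (F : HA C α) : ℝ × C2A C α → Hol (wt C α) ℝ :=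
  Gop (ι := Unit) (fun _ => 1) (fun _ => SM K h0 h1) (fun _ => J2 C α) (Iu C α) F

theorem one_apply (p : Pt C) : (1 : Hol (wt C α) ℝ) p = 1 := rfl

theorem GH_apply (K : KM C) (h0 : 0 < α) (h1 : α ≤ 1) (F : HA C α) (x : ℝ × C2A C α) (p : Pt C) :
    GH K h0 h1 F x p = (1 + (K.w p.a p.z)⁻¹ * lev (J2 C α x.2 p)).det.re -
      Real.exp (Iu C α x.2 p + x.1 * (F : Hol (wt C α) ℝ) p) := by
  rw [GH, Gop_apply, MA_apply]
  simp only [Finset.univ_unique, Finset.sum_singleton, evM_SM, one_apply, one_mul]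

theorem GH_mem (K : KM C) (h0 : 0 < α) (h1 : α ≤ 1) (F : HA C α) (x : ℝ × C2A C α) :
    GH K h0 h1 F x ∈ HA C α := by
  intro p q h
  rw [GH_apply, GH_apply, det_same K x.2 h, F.2 p q h]
  congr 3
  exact (inc C α x.2).2 p q h

/-- the operator of the continuity method -/
def GA (K : KM C) (h0 : 0 < α) (h1 : α ≤ 1) (F : HA C α) (x : ℝ × C2A C α) : HA C α :=
  ⟨GH K h0 h1 F x, GH_mem K h0 h1 F x⟩

theorem GH_strict (K : KM C) (h0 : 0 < α) (h1 : α ≤ 1) (F : HA C α) (x : ℝ × C2A C α) :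
    HasStrictFDerivAt (GH K h0 h1 F) (fderiv ℝ (GH K h0 h1 F) x) x :=
  exists_strict _ _ _ _ _ x

theorem GH'_mem (K : KM C) (h0 : 0 < α) (h1 : α ≤ 1) (F : HA C α) (x v : ℝ × C2A C α) :
    fderiv ℝ (GH K h0 h1 F) x v ∈ HA C α :=
  fderiv_mem _ isClosed_HA (GH_strict K h0 h1 F x).hasFDerivAt (GH_mem K h0 h1 F) v

/-- its derivative -/
def GA' (K : KM C) (h0 : 0 < α) (h1 : α ≤ 1) (F : HA C α) (x : ℝ × C2A C α) :
    ℝ × C2A C α →L[ℝ] HA C α :=
  (fderiv ℝ (GH K h0 h1 F) x).codRestrict (HA C α) (GH'_mem K h0 h1 F x)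

theorem GA_strict (K : KM C) (h0 : 0 < α) (h1 : α ≤ 1) (F : HA C α) (x : ℝ × C2A C α) :
    HasStrictFDerivAt (GA K h0 h1 F) (GA' K h0 h1 F x) x :=
  strict_cod _ (GH_strict K h0 h1 F x) (GH_mem K h0 h1 F) _

end

end Vale.Agent.P284.H287.CY
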