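import Vale.Agent.P284.H287.CY.N1b

/-!
# P284, theorem CY, row N1 (helper287): the equation and the linearisation
-/

open scoped Manifold ContDiff Topology NNReal ComplexOrder ComplexConjugate Matrix
open Filter Set Metric MeasureTheory

set_option maxSynthPendingDepth 3
set_option linter.unusedSectionVars false

noncomputable section

namespace Vale.Agent.P284.H287.CY

open Vale.Agent.P272.K Vale.Agent.P272.K.LIN Vale.Agent.P272.K.N Vale.Agent.P284.H248
  Vale.Agent.P284.H894 Vale.Agent.P284.H894.G Vale.Agent.P284.H894.V Vale.Agent.P284.H409.K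
  Vale.Agent.P284.H730.CY Vale.Agent.P284.H730.V

section
variable {n : ℕ} {Γ : Type} [Group Γ] {C : Coc n Γ} {α : ℝ}

theorem posDef_of_low {A B : Matrix (Fin n) (Fin n) ℂ} (hA : A.PosDef) {c : ℝ} (hc : 0 < c)
    (h : (B - (c : ℂ) • A).PosSemidef) : B.PosDef := by
  have h1 : ((c : ℂ) • A).PosDef := hA.smul (by exact_mod_cast hc)
  have h2 := h1.add_posSemidef h
  have h3 : (c : ℂ) • A + (B - (c : ℂ) • A) = B := by abel
  rwa [h3] at h2

theorem posDef_of_PosS {K : KM C} {u : C2A C α} (hu : u ∈ PosS K α) (p : Pt C) :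
    (K.w p.a p.z + lev (J2 C α u p)).PosDef := by
  obtain ⟨c, hc, h⟩ := hu
  exact posDef_of_low (posDef_w K p) hc (h p)

theorem GA_eq_zero_iff (K : KM C) (h0 : 0 < α) (h1 : α ≤ 1) {F : Γ → C.I → Cm n → ℝ}
    (hF : FB C F) {s : ℝ} {u : C2A C α} (hu : u ∈ PosS K α) :
    GA K h0 h1 (FH h0 h1 hF) (s, u) = 0 ↔ Eqn K α F s u := by
  have key : ∀ p : Pt C, GH K h0 h1 (FH h0 h1 hF) (s, u) p = 0 ↔
      Real.log (K.w p.a p.z + lev (J2 C α u p)).det.re - Real.log (K.w p.a p.z).det.re =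
        fn u p.γ p.a p.z + s * F p.γ p.a p.z := by
    intro p
    rw [GH_apply, relM_eq, det_inv_mul (posDef_w K p) (posDef_of_PosS hu p), Complex.ofReal_re,
      sub_eq_zero, Iu_apply]
    have h2 : 0 < (K.w p.a p.z + lev (J2 C α u p)).det.re :=
      (Complex.pos_iff.1 (posDef_of_PosS hu p).det_pos).1
    have h3 := det_w_pos K p
    have h5 : ((FH h0 h1 hF : HA C α) : Hol (wt C α) ℝ) p = F p.γ p.a p.z := rfl
    rw [← Real.log_div h2.ne' h3.ne', h5]
    constructor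
    · intro h4
      rw [h4, Real.log_exp]
    · intro h4
      rw [← h4, Real.exp_log (div_pos h2 h3)]
  constructor
  · intro hG p
    refine (key p).1 ?_
    have := congrArg (fun f : HA C α => (f : Hol (wt C α) ℝ) p) hG
    exact this
  · intro hG
    apply Subtype.ext
    ext p
    exact (key p).2 (hG p)

/-- `g = w + ∂∂̄u` -/
def gm (K : KM C) (u : C2A C α) (p : Pt C) : Matrix (Fin n) (Fin n) ℂ :=
  K.w p.a p.z + lev (J2 C α u p)

/-- the inverse of the metric `w + ∂∂̄u` in the Hölder algebra -/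
def iG (K : KM C) (h0 : 0 < α) (h1 : α ≤ 1) (F : HA C α) (s : ℝ) (u : C2A C α) :
    Matrix (Fin n) (Fin n) (Hol (wt C α) ℂ) :=
  Hol.map Complex.ofRealCLM (NormedSpace.exp (-(Iu C α u + s • (F : Hol (wt C α) ℝ)))) •
    ((relM (SM K h0 h1) (J2 C α) u).adjugate * SM K h0 h1)

theorem evM_iG (K : KM C) (h0 : 0 < α) (h1 : α ≤ 1) {F : HA C α} {s : ℝ} {u : C2A C α}
    (hu : u ∈ PosS K α) (hG : GA K h0 h1 F (s, u) = 0) (p : Pt C) :
    evM (iG K h0 h1 F s u) p = (gm K u p)⁻¹ := by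
  have hg := posDef_of_PosS hu p
  have hw := posDef_w K p
  have h2 : 0 < (gm K u p).det.re := (Complex.pos_iff.1 hg.det_pos).1
  have h3 := det_w_pos K p
  have e1 : evM (iG K h0 h1 F s u) p =
      ((Real.exp (-(Iu C α u p + s * (F : Hol (wt C α) ℝ) p)) : ℝ) : ℂ) •
      (evM ((relM (SM K h0 h1) (J2 C α) u).adjugate * SM K h0 h1) p) := by
    ext j k
    simp only [iG, evM_apply, Matrix.smul_apply, smul_eq_mul, Hol.mul_apply, Hol.map_apply,
      Hol.exp_apply, Hol.neg_apply, Hol.add_apply, Hol.smul_apply, Real.exp_eq_exp_ℝ,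
      Complex.ofRealCLM_apply]
  have e2 : evM (relM (SM K h0 h1) (J2 C α) u) p = (K.w p.a p.z)⁻¹ * gm K u p := by
    rw [relM, evM_add, evM_one, evM_mul, evM_levH, evM_SM, relM_eq]
    rfl
  have e3 : ((K.w p.a p.z)⁻¹ * gm K u p).det =
      (Real.exp (Iu C α u p + s * (F : Hol (wt C α) ℝ) p) : ℂ) := by
    have h4 : GH K h0 h1 F (s, u) p = 0 :=
      congrArg (fun f : HA C α => (f : Hol (wt C α) ℝ) p) hG
    rw [GH_apply, relM_eq, sub_eq_zero] at h4
    simp only at h4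
    rw [← h4]
    have hg' : (gm K u p).PosDef := hg
    change ((K.w p.a p.z)⁻¹ * gm K u p).det = ((((K.w p.a p.z)⁻¹ * gm K u p).det.re : ℝ) : ℂ)
    rw [det_inv_mul hw hg', Complex.ofReal_re]
  have e4 : ((Real.exp (-(Iu C α u p + s * (F : Hol (wt C α) ℝ) p)) : ℝ) : ℂ) •
      ((K.w p.a p.z)⁻¹ * gm K u p).adjugate = ((K.w p.a p.z)⁻¹ * gm K u p)⁻¹ := by
    rw [Real.exp_neg, Complex.ofReal_inv]
    exact inv_of_det e3
  rw [e1, evM_mul, evM_adjugate, e2, evM_SM, ← Matrix.smul_mul, e4, Matrix.mul_inv_rev,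
    Matrix.nonsing_inv_nonsing_inv _ (det_w_unit K p), Matrix.mul_assoc,
    Matrix.mul_nonsing_inv _ (det_w_unit K p), Matrix.mul_one]

/-- the coefficient of the Laplacian of `w + ∂∂̄u` in the Hölder space -/
def cf (K : KM C) (h0 : 0 < α) (h1 : α ≤ 1) (F : HA C α) (s : ℝ) (u : C2A C α) :
    Hol (wt C α) (Bil n →L[ℝ] ℝ) :=
  ∑ j, ∑ k, Hol.map (coefL j k) (iG K h0 h1 F s u j k)

theorem cf_apply (K : KM C) (h0 : 0 < α) (h1 : α ≤ 1) {F : HA C α} {s : ℝ} {u : C2A C α}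
    (hu : u ∈ PosS K α) (hG : GA K h0 h1 F (s, u) = 0) (p : Pt C) (B : Bil n) :
    cf K h0 h1 F s u p B = ((gm K u p)⁻¹ * lev B).trace.re := by
  rw [← evM_iG K h0 h1 hu hG p, cf, Hol.sum_apply]
  simp only [Hol.sum_apply, Hol.map_apply, _root_.sum_apply, coefL_apply, Matrix.trace,
    Matrix.diag_apply, Matrix.mul_apply, Complex.re_sum, evM_apply]

/-- the derivative at a solution -/
theorem GH'_apply (K : KM C) (h0 : 0 < α) (h1 : α ≤ 1) {F : HA C α} {s : ℝ} {u : C2A C α}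
    (hu : u ∈ PosS K α) (hG : GA K h0 h1 F (s, u) = 0) (v : C2A C α) (p : Pt C) :
    (fderiv ℝ (GH K h0 h1 F) (s, u) (0, v)) p =
      Real.exp (Iu C α u p + s * (F : Hol (wt C α) ℝ) p) *
        (((gm K u p)⁻¹ * lev (J2 C α v p)).trace.re - Iu C α v p) := by
  have hg := posDef_of_PosS hu p
  have hw := posDef_w K p
  refine fderiv_Gop_apply (ι := Unit) (fun _ => 1) (fun _ => SM K h0 h1) (fun _ => J2 C α)
    (Iu C α) F (by simp) fun _ _ => ?_
  have h4 : GH K h0 h1 F (s, u) p = 0 :=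
    congrArg (fun f : HA C α => (f : Hol (wt C α) ℝ) p) hG
  rw [GH_apply, relM_eq, sub_eq_zero] at h4
  simp only at h4
  rw [evM_SM, relM_eq]
  refine ⟨?_, ?_⟩
  · rw [← h4, det_inv_mul hw hg, Complex.ofReal_re]
  · exact congrArg (fun M : Matrix (Fin n) (Fin n) ℂ => M.trace.re) (trace_aux (det_w_unit K p))

end

end Vale.Agent.P284.H287.CY
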